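import Vale.Agent.P160.Main

namespace Vale.Agent.Results.P160.QuadraticLowerBound

open Vale.Agent.P160 Filter Topology

theorem result :
    (∀ n : ℕ, ((n : ℝ) * ((n : ℝ) - 1)) / 2 ^ n
        - ((n : ℝ) * ((n : ℝ) - 1)) * ((n : ℝ) * ((n : ℝ) - 1) - 1) / 4 ^ n ≤ q n) ∧
    (∀ ε : ℝ, 0 < ε → ∃ N : ℕ, ∀ n : ℕ, N ≤ n → (1 - ε) * (n : ℝ) ^ 2 / 2 ^ n ≤ q n) := by
  refine ⟨q_lower, ?_⟩
  intro ε hε
  have t1 : Tendsto (fun n : ℕ => (n : ℝ) ^ 2 / (2 : ℝ) ^ n) atTop (𝓝 0) :=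
    tendsto_pow_const_div_const_pow_of_one_lt 2 (by norm_num)
  have t2 : Tendsto (fun n : ℕ => 1 / (n : ℝ)) atTop (𝓝 0) := tendsto_one_div_atTop_nhds_zero_nat
  have t3 : Tendsto (fun n : ℕ => 1 / (n : ℝ) + (n : ℝ) ^ 2 / (2 : ℝ) ^ n) atTop (𝓝 0) := by
    simpa using t2.add t1
  have hev : ∀ᶠ n : ℕ in atTop, 1 / (n : ℝ) + (n : ℝ) ^ 2 / (2 : ℝ) ^ n < ε :=
    t3.eventually (gt_mem_nhds hε)
  obtain ⟨N, hN⟩ := eventually_atTop.mp hev
  refine ⟨max N 1, fun n hn => ?_⟩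
  have hn1 : 1 ≤ n := le_trans (le_max_right _ _) hn
  have hnN : N ≤ n := le_trans (le_max_left _ _) hn
  have h := hN n hnN
  refine le_trans ?_ (q_lower n)
  have hx : (1 : ℝ) ≤ (n : ℝ) := by exact_mod_cast hn1
  have hx0 : (0 : ℝ) < (n : ℝ) := by linarith
  have h2pos : (0 : ℝ) < 2 ^ n := by positivity
  have h44 : (4 : ℝ) ^ n = 2 ^ n * 2 ^ n := by
    rw [← mul_pow]
    norm_num
  set x : ℝ := (n : ℝ) with hxdef
  set P : ℝ := (2 : ℝ) ^ n with hP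
  rw [h44]
  -- multiply `h` by `x ^ 2`
  have h' : x + x ^ 4 / P < ε * x ^ 2 := by
    have := mul_lt_mul_of_pos_right h (by positivity : (0 : ℝ) < x ^ 2)
    have e : (1 / x + x ^ 2 / P) * x ^ 2 = x + x ^ 4 / P := by
      field_simp
    rwa [e] at this
  have hle : x * (x - 1) * (x * (x - 1) - 1) ≤ x ^ 4 := by
    nlinarith [mul_pos hx0 hx0, mul_pos (mul_pos hx0 hx0) hx0]
  have hle2 : x * (x - 1) * (x * (x - 1) - 1) / P ≤ x ^ 4 / P :=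
    div_le_div_of_nonneg_right hle h2pos.le
  have e1 : x * (x - 1) / P - x * (x - 1) * (x * (x - 1) - 1) / (P * P)
      = (x * (x - 1) - x * (x - 1) * (x * (x - 1) - 1) / P) / P := by
    field_simp
  rw [e1]
  apply div_le_div_of_nonneg_right _ h2pos.le
  nlinarith

end Vale.Agent.Results.P160.QuadraticLowerBound
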